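import Mathlib

/-!
P123 (Crouzeix): the inequality with constant 2 for all polynomials of degree at most one,
for every bounded operator on every nonzero complex Hilbert (inner product) space.
-/

namespace Vale.Agent.Results.P123.A_DegreeOne

open Polynomial

/-- The numerical radius bound: if `|<T x, x>| ≤ w` for all unit vectors, then `‖T‖ ≤ 2 w`. -/
private theorem opNorm_le_two_mul {H : Type} [NormedAddCommGroup H] [InnerProductSpace ℂ H]
    [Nontrivial H] (T : H →L[ℂ] H) (w : ℝ)
    (hw : ∀ x : H, ‖x‖ = 1 → ‖inner ℂ x (T x)‖ ≤ w) : ‖T‖ ≤ 2 * w := by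
  obtain ⟨u, hu⟩ := exists_norm_eq H (show (0 : ℝ) ≤ 1 by norm_num)
  have hw0 : 0 ≤ w := le_trans (norm_nonneg _) (hw u hu)
  have h1 : ∀ v : H, ‖inner ℂ (T v) v‖ ≤ w * ‖v‖ ^ 2 := by
    intro v
    by_cases hv : v = 0
    · simp [hv]
    · have hvn : ‖v‖ ≠ 0 := norm_ne_zero_iff.2 hv
      have hunit : ‖((‖v‖ : ℂ)⁻¹) • v‖ = 1 := by
        rw [norm_smul, norm_inv, Complex.norm_real, norm_norm, inv_mul_cancel₀ hvn]
      have h := hw _ hunit
      rw [map_smul, inner_smul_left, inner_smul_right, norm_mul, norm_mul] at h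
      simp only [map_inv₀, Complex.conj_ofReal, norm_inv, Complex.norm_real, norm_norm] at h
      rw [← norm_inner_symm] at h
      have hpos : 0 < ‖v‖ := norm_pos_iff.2 hv
      have h' : ‖inner ℂ (T v) v‖ ≤ w * (‖v‖ * ‖v‖) := by
        have := mul_le_mul_of_nonneg_left h (mul_nonneg hpos.le hpos.le)
        field_simp at this
        linarith
      simpa [pow_two] using h'
  have h2 : ∀ x y : H, ‖inner ℂ (T y) x‖ ≤ w * (‖x‖ ^ 2 + ‖y‖ ^ 2) := by
    intro x y
    have hpol := inner_map_polarization (T : H →ₗ[ℂ] H) x y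
    simp only [ContinuousLinearMap.coe_coe] at hpol
    rw [hpol, norm_div]
    have e1 := h1 (x + y)
    have e2 := h1 (x - y)
    have e3 := h1 (x + Complex.I • y)
    have e4 := h1 (x - Complex.I • y)
    have p1 := parallelogram_law_with_norm ℂ x y
    have p2 := parallelogram_law_with_norm ℂ x (Complex.I • y)
    have hI : ‖Complex.I • y‖ = ‖y‖ := by rw [norm_smul, Complex.norm_I, one_mul]
    rw [hI] at p2
    have hn4 : ‖(4 : ℂ)‖ = 4 := by norm_num
    rw [hn4, div_le_iff₀ (by norm_num : (0 : ℝ) < 4)]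
    have t1 : ‖inner ℂ (T (x + y)) (x + y) - inner ℂ (T (x - y)) (x - y) +
        Complex.I * inner ℂ (T (x + Complex.I • y)) (x + Complex.I • y) -
        Complex.I * inner ℂ (T (x - Complex.I • y)) (x - Complex.I • y)‖ ≤
        ‖inner ℂ (T (x + y)) (x + y)‖ + ‖inner ℂ (T (x - y)) (x - y)‖ +
        ‖inner ℂ (T (x + Complex.I • y)) (x + Complex.I • y)‖ +
        ‖inner ℂ (T (x - Complex.I • y)) (x - Complex.I • y)‖ := by
      refine (norm_sub_le _ _).trans ?_
      rw [norm_mul, Complex.norm_I, one_mul]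
      refine add_le_add_left ?_ _
      refine (norm_add_le _ _).trans ?_
      rw [norm_mul, Complex.norm_I, one_mul]
      refine add_le_add_left ?_ _
      exact norm_sub_le _ _
    nlinarith [t1, e1, e2, e3, e4, p1, p2, hw0]
  have h3 : ∀ y : H, ‖y‖ = 1 → ‖T y‖ ≤ 2 * w := by
    intro y hy
    by_cases hT : T y = 0
    · rw [hT, norm_zero]; linarith
    · have hTn : ‖T y‖ ≠ 0 := norm_ne_zero_iff.2 hT
      set x : H := ((‖T y‖ : ℂ)⁻¹) • T y with hx
      have hxn : ‖x‖ = 1 := by
        rw [hx, norm_smul, norm_inv, Complex.norm_real, norm_norm, inv_mul_cancel₀ hTn]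
      have hin : inner ℂ (T y) x = (‖T y‖ : ℂ) := by
        rw [hx, inner_smul_right, inner_self_eq_norm_sq_to_K]
        have : ((‖T y‖ : ℝ) : ℂ) ≠ 0 := by exact_mod_cast hTn
        field_simp
        simp [pow_two]
      have h := h2 x y
      rw [hin, Complex.norm_real, norm_norm, hxn, hy] at h
      linarith
  exact ContinuousLinearMap.opNorm_le_of_unit_norm (by linarith) h3

theorem result :
    ∀ (H : Type) [NormedAddCommGroup H] [InnerProductSpace ℂ H] [Nontrivial H]
      (A : H →L[ℂ] H) (P : ℂ[X]) (M : ℝ), P.natDegree ≤ 1 →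
      (∀ x : H, ‖x‖ = 1 → ‖P.eval (inner ℂ x (A x))‖ ≤ M) →
      ‖Polynomial.aeval A P‖ ≤ 2 * M := by
  intro H _ _ _ A P M hdeg hM
  apply opNorm_le_two_mul
  intro x hx
  have hP := Polynomial.eq_X_add_C_of_natDegree_le_one hdeg
  have hxx : inner ℂ x x = (1 : ℂ) := by
    rw [inner_self_eq_norm_sq_to_K, hx]; simp
  have hev : inner ℂ x ((Polynomial.aeval A P) x) = P.eval (inner ℂ x (A x)) := by
    generalize P.coeff 1 = a at hP
    generalize P.coeff 0 = b at hP
    subst hP
    simp only [map_add, map_mul, Polynomial.aeval_C, Polynomial.aeval_X, Polynomial.eval_add,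
      Polynomial.eval_mul, Polynomial.eval_C, Polynomial.eval_X]
    simp only [Algebra.algebraMap_eq_smul_one, ContinuousLinearMap.add_apply,
      ContinuousLinearMap.smul_apply, ContinuousLinearMap.mul_apply,
      ContinuousLinearMap.one_apply, inner_add_right, inner_smul_right, hxx, mul_one]
  rw [hev]
  exact hM x hx

end Vale.Agent.Results.P123.A_DegreeOne
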